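import Vale.Agent.P240.V.T7
import Vale.Agent.P240.V.T8

open Vale.Agent.P240 Vale.Agent.P240.K Vale.Agent.P240.Q Subgroup

universe u v

/-- Let `G` be a finite group, `p` a prime and `𝕜` any field; `HQ` means that `𝒜ₚ` is not
`𝕜`-acyclic.
(1) Suppose `O_p(G) = 1` and let `N = O_{p'}(G)` be such that every elementary abelian `p`-subgroup
of `G` acting faithfully on `N` acts faithfully on a solvable subgroup of `N`. Then
`Q = C_G(N) / (N ∩ C_G(N))` satisfies `O_p(Q) = O_{p'}(Q) = 1`, and `HQ(Q)` implies `HQ(G)`.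
(2) Suppose `O_p(G) = O_{p'}(G) = 1`. Let `D` be a conjugation-stable set of components of `G` and
`S, A, X` sets of elements such that all `L ∈ D` satisfy the local condition `Local`, or all satisfy
the local condition `Adic` for one prime `l`; let the other components satisfy `FewOuter` and
`AlmostSimpleHQ`. Then `HQ(G)`. The conditions concern only `S ∩ L`, `A ∩ L`, `X ∩ L` and the action
of `N_G(L)` on `L`; the elements of `G` may permute the components arbitrarily. -/
theorem Vale.Agent.Results.P240.Components.result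
    {𝕜 : Type v} [Field 𝕜] {p : ℕ} [Fact p.Prime] (G : Type u) [Group G] [Finite G] :
    (OpTrivial p G → ∀ (N : Subgroup G) [N.Normal], ¬ p ∣ Nat.card N →
      (∀ X : Subgroup G, X.Normal → ¬ p ∣ Nat.card X → X ≤ N) → SolvableFaithful p N →
      OpTrivial p (Reduced N) ∧ OpPrimeTrivial p (Reduced N) ∧
        (K.HQ 𝕜 p (Reduced N) → K.HQ 𝕜 p G)) ∧
    (OpTrivial p G → OpPrimeTrivial p G → ∀ (D : Set (Subgroup G)) (S A X : Set G),
      D ⊆ Q.Comp G → (∀ L ∈ D, ∀ g : G, L.map (MulAut.conj g).toMonoidHom ∈ D) →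
      ((∀ L ∈ D, Local p S A X L) ∨ ∃ l : ℕ, l.Prime ∧ ∀ L ∈ D, Q.Adic p l S L) →
      (∀ L ∈ Q.Comp G, L ∈ D ∨ FewOuter p L ∧ AlmostSimpleHQ 𝕜 p L) → K.HQ 𝕜 p G) :=
  ⟨fun hO N _ hN hmax hsol => ⟨reduced_op hO N hN, reduced_op' N hN hmax, reduce_all N hN hsol⟩,
    fun hO hO' D S A X hD hc hl hT =>
      have hT' : ∀ L ∈ K.Comp G, L ∈ D ∨ Removable 𝕜 p L :=
        fun L hL => (hT L hL).imp_right fun h => Or.inl h
      hl.elim
        (fun h => twin_main hO hO' D (S ∪ A) X hD hc (fun L hL => local_twin (h L hL)) hT')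
        fun ⟨_, hl, h⟩ => adic_main hO hO' D S hD hc hl (fun L hL => adic_adic (h L hL)) hT'⟩
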